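import Vale.Agent.P154.GDP.Scalar
import Vale.Agent.P154.GDP.Ck1
import Vale.Agent.P154.GDP.Ck2

/-!
# Kernel checks of the scalar inequality, Poisson certificate
-/

namespace Vale.Agent.P154.GDP

set_option maxRecDepth 100000

/-- vertex -/
def vx0 : Vp := ⟨35, ve0⟩

/-- vertex -/
def vx1 : Vp := ⟨43, ve1⟩

/-- vertex -/
def vx2 : Vp := ⟨52, ve2⟩

/-- vertex -/
def vx3 : Vp := ⟨64, ve3⟩

/-- vertex -/
def vx4 : Vp := ⟨78, ve4⟩

/-- vertex -/
def vx5 : Vp := ⟨96, ve5⟩

/-- vertex -/
def vx6 : Vp := ⟨117, ve6⟩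

/-- vertex -/
def vx7 : Vp := ⟨143, ve7⟩

/-- vertex -/
def vx8 : Vp := ⟨175, ve8⟩

/-- vertex -/
def vx9 : Vp := ⟨214, ve9⟩

/-- vertex -/
def vx10 : Vp := ⟨262, ve10⟩

/-- vertex -/
def vx11 : Vp := ⟨320, ve11⟩

/-- vertex -/
def vx12 : Vp := ⟨390, ve12⟩

/-- vertex -/
def vx13 : Vp := ⟨480, ve13⟩

/-- vertex -/
def vx14 : Vp := ⟨580, ve14⟩

/-- vertex -/
def vx15 : Vp := ⟨700, ve15⟩

/-- vertex -/
def vx16 : Vp := ⟨850, ve16⟩

/-- vertex -/
def vx17 : Vp := ⟨1040, ve17⟩

/-- vertex -/
def vx18 : Vp := ⟨1270, ve18⟩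

/-- vertex -/
def vx19 : Vp := ⟨1550, ve19⟩

/-- vertex -/
def vx20 : Vp := ⟨1850, ve20⟩

/-- vertex -/
def vx21 : Vp := ⟨2150, ve21⟩

/-- vertex -/
def vx22 : Vp := ⟨2440, ve22⟩

theorem iv0 : chk3 6 27345954297271680 vx0 vx1 = true := by decide +kernel

theorem iv1 : chk3 6 27345954297271680 vx1 vx2 = true := by decide +kernel

theorem iv2 : chk3 6 27345954297271680 vx2 vx3 = true := by decide +kernel

theorem iv3 : chk3 6 27345954297271680 vx3 vx4 = true := by decide +kernel

theorem iv4 : chk3 6 27345954297271680 vx4 vx5 = true := by decide +kernel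

theorem iv5 : chk3 6 27345954297271680 vx5 vx6 = true := by decide +kernel

theorem iv6 : chk3 6 27345954297271680 vx6 vx7 = true := by decide +kernel

theorem iv7 : chk3 6 27345954297271680 vx7 vx8 = true := by decide +kernel

theorem iv8 : chk3 6 27345954297271680 vx8 vx9 = true := by decide +kernel

theorem iv9 : chk3 6 27345954297271680 vx9 vx10 = true := by decide +kernel

theorem iv10 : chk3 6 27345954297271680 vx10 vx11 = true := by decide +kernel

theorem iv11 : chk3 6 27345954297271680 vx11 vx12 = true := by decide +kernel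

theorem iv12 : chk3 6 27345954297271680 vx12 vx13 = true := by decide +kernel

theorem iv13 : chk3 6 27345954297271680 vx13 vx14 = true := by decide +kernel

theorem iv14 : chk3 8 5909187264097437331200 vx14 vx15 = true := by decide +kernel

theorem iv15 : chk3 8 5909187264097437331200 vx15 vx16 = true := by decide +kernel

theorem iv16 : chk3 10 1872810537984929008251878400 vx16 vx17 = true := by decide +kernel

theorem iv17 : chk3 10 1872810537984929008251878400 vx17 vx18 = true := by decide +kernel

theorem iv18 : chk3 10 1872810537984929008251878400 vx18 vx19 = true := by decide +kernel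

theorem iv19 : chk3 12 818384494509730247883922326988800 vx19 vx20 = true := by decide +kernel

theorem iv20 : chk3 12 818384494509730247883922326988800 vx20 vx21 = true := by decide +kernel

theorem iv21 : chk3 12 818384494509730247883922326988800 vx21 vx22 = true := by decide +kernel

theorem cst6 : (27345954297271680 : ℤ) = ((6 + 2).factorial : ℤ) * 49 ^ (6 + 1) := by
  simp [Nat.factorial]

theorem cst8 : (5909187264097437331200 : ℤ) = ((8 + 2).factorial : ℤ) * 49 ^ (8 + 1) := by
  simp [Nat.factorial]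

theorem cst10 : (1872810537984929008251878400 : ℤ) = ((10 + 2).factorial : ℤ) * 49 ^ (10 + 1) := by
  simp [Nat.factorial]

theorem cst12 : (818384494509730247883922326988800 : ℤ) = ((12 + 2).factorial : ℤ) * 49 ^ (12 + 1) := by
  simp [Nat.factorial]

/-- what is known for a parameter -/
def Cov (x : ℝ) : Prop :=
  ∃ (K : ℕ) (cst : ℤ) (u v : Vp), Even K ∧ cst = ((K + 2).factorial : ℤ) * 49 ^ (K + 1) ∧
    chk3 K cst u v = true ∧ okE u.e = true ∧ okE v.e = true ∧ (u.s : ℝ) ≤ x ∧ x < v.s

theorem cover {x : ℝ} (h0 : 35 ≤ x) (h1 : x < 2440) : Cov x := by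
  by_cases h : x < 43
  · exact ⟨6, _, vx0, vx1, by decide, cst6, iv0, ok_ve0, ok_ve1,
      by simpa [vx0] using h0, by simpa [vx1] using h⟩
  push Not at h
  clear h0
  rename' h => h0
  by_cases h : x < 52
  · exact ⟨6, _, vx1, vx2, by decide, cst6, iv1, ok_ve1, ok_ve2,
      by simpa [vx1] using h0, by simpa [vx2] using h⟩
  push Not at h
  clear h0
  rename' h => h0
  by_cases h : x < 64
  · exact ⟨6, _, vx2, vx3, by decide, cst6, iv2, ok_ve2, ok_ve3,
      by simpa [vx2] using h0, by simpa [vx3] using h⟩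
  push Not at h
  clear h0
  rename' h => h0
  by_cases h : x < 78
  · exact ⟨6, _, vx3, vx4, by decide, cst6, iv3, ok_ve3, ok_ve4,
      by simpa [vx3] using h0, by simpa [vx4] using h⟩
  push Not at h
  clear h0
  rename' h => h0
  by_cases h : x < 96
  · exact ⟨6, _, vx4, vx5, by decide, cst6, iv4, ok_ve4, ok_ve5,
      by simpa [vx4] using h0, by simpa [vx5] using h⟩
  push Not at h
  clear h0
  rename' h => h0
  by_cases h : x < 117
  · exact ⟨6, _, vx5, vx6, by decide, cst6, iv5, ok_ve5, ok_ve6,
      by simpa [vx5] using h0, by simpa [vx6] using h⟩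
  push Not at h
  clear h0
  rename' h => h0
  by_cases h : x < 143
  · exact ⟨6, _, vx6, vx7, by decide, cst6, iv6, ok_ve6, ok_ve7,
      by simpa [vx6] using h0, by simpa [vx7] using h⟩
  push Not at h
  clear h0
  rename' h => h0
  by_cases h : x < 175
  · exact ⟨6, _, vx7, vx8, by decide, cst6, iv7, ok_ve7, ok_ve8,
      by simpa [vx7] using h0, by simpa [vx8] using h⟩
  push Not at h
  clear h0
  rename' h => h0
  by_cases h : x < 214
  · exact ⟨6, _, vx8, vx9, by decide, cst6, iv8, ok_ve8, ok_ve9,
      by simpa [vx8] using h0, by simpa [vx9] using h⟩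
  push Not at h
  clear h0
  rename' h => h0
  by_cases h : x < 262
  · exact ⟨6, _, vx9, vx10, by decide, cst6, iv9, ok_ve9, ok_ve10,
      by simpa [vx9] using h0, by simpa [vx10] using h⟩
  push Not at h
  clear h0
  rename' h => h0
  by_cases h : x < 320
  · exact ⟨6, _, vx10, vx11, by decide, cst6, iv10, ok_ve10, ok_ve11,
      by simpa [vx10] using h0, by simpa [vx11] using h⟩
  push Not at h
  clear h0
  rename' h => h0
  by_cases h : x < 390
  · exact ⟨6, _, vx11, vx12, by decide, cst6, iv11, ok_ve11, ok_ve12,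
      by simpa [vx11] using h0, by simpa [vx12] using h⟩
  push Not at h
  clear h0
  rename' h => h0
  by_cases h : x < 480
  · exact ⟨6, _, vx12, vx13, by decide, cst6, iv12, ok_ve12, ok_ve13,
      by simpa [vx12] using h0, by simpa [vx13] using h⟩
  push Not at h
  clear h0
  rename' h => h0
  by_cases h : x < 580
  · exact ⟨6, _, vx13, vx14, by decide, cst6, iv13, ok_ve13, ok_ve14,
      by simpa [vx13] using h0, by simpa [vx14] using h⟩
  push Not at h
  clear h0
  rename' h => h0
  by_cases h : x < 700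
  · exact ⟨8, _, vx14, vx15, by decide, cst8, iv14, ok_ve14, ok_ve15,
      by simpa [vx14] using h0, by simpa [vx15] using h⟩
  push Not at h
  clear h0
  rename' h => h0
  by_cases h : x < 850
  · exact ⟨8, _, vx15, vx16, by decide, cst8, iv15, ok_ve15, ok_ve16,
      by simpa [vx15] using h0, by simpa [vx16] using h⟩
  push Not at h
  clear h0
  rename' h => h0
  by_cases h : x < 1040
  · exact ⟨10, _, vx16, vx17, by decide, cst10, iv16, ok_ve16, ok_ve17,
      by simpa [vx16] using h0, by simpa [vx17] using h⟩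
  push Not at h
  clear h0
  rename' h => h0
  by_cases h : x < 1270
  · exact ⟨10, _, vx17, vx18, by decide, cst10, iv17, ok_ve17, ok_ve18,
      by simpa [vx17] using h0, by simpa [vx18] using h⟩
  push Not at h
  clear h0
  rename' h => h0
  by_cases h : x < 1550
  · exact ⟨10, _, vx18, vx19, by decide, cst10, iv18, ok_ve18, ok_ve19,
      by simpa [vx18] using h0, by simpa [vx19] using h⟩
  push Not at h
  clear h0
  rename' h => h0
  by_cases h : x < 1850
  · exact ⟨12, _, vx19, vx20, by decide, cst12, iv19, ok_ve19, ok_ve20,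
      by simpa [vx19] using h0, by simpa [vx20] using h⟩
  push Not at h
  clear h0
  rename' h => h0
  by_cases h : x < 2150
  · exact ⟨12, _, vx20, vx21, by decide, cst12, iv20, ok_ve20, ok_ve21,
      by simpa [vx20] using h0, by simpa [vx21] using h⟩
  push Not at h
  clear h0
  rename' h => h0
  exact ⟨12, _, vx21, vx22, by decide, cst12, iv21, ok_ve21, ok_ve22,
      by simpa [vx21] using h0, by simpa [vx22] using h1⟩

end Vale.Agent.P154.GDP
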