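import Vale.Agent.P154.GDP.Point

/-!
# Data of the Poisson certificate (generated)
-/

namespace Vale.Agent.P154.GDP

open Vale.Agent.P154
open Vale.Agent.P154.GD (V3 Tri Cf VE kc chkI)

/-- a vertex of the certificate -/
structure Vp where
  s : ℕ
  e : VE

/-- the weights of the functional, times `10 ^ 7` -/
def lamZ : ℤ × ℤ × ℤ := (-96320000, 379495000, -265630000)

/-- check of the pointwise inequalities -/
def okE (v : VE) : Bool :=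
  v.t1.chk (chkI v.n v.b) (11, 11, 6) (19, 17, 17) (1, 1, 1) &&
    v.t2.chk (chkII v.n (2 * v.a) lamZ) (1, 0, 0) (1, 1, 0) (1, 1, 1)

/-- data -/
def ve0 : VE :=
  ⟨-1031, (-93826127, 367526638, -256485923), ⟨10065362, -62302, 1159576, -8865963, 23530803, -17763164⟩,
    (.node 0 3 28 1 (61, 61, 46) .leaf (.node 0 1 56 3 (39, 39, 34) .leaf (.node 0 3 112 1 (229, 229, 214) .leaf (.node 1 3 53 2 (55, 52, 52) (.node 2 53 672 1 (24905, 23561, 22766) .leaf .leaf) (.node 0 1 224 3 (151, 151, 146) .leaf .leaf))))),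
    (.node 0 3 1 1 (4, 1, 1) .leaf (.node 1 3 2 1 (5, 5, 2) .leaf (.node 0 1 2 3 (2, 1, 1) .leaf (.node 1 1 4 3 (3, 3, 2) (.node 2 3 1 1 (11, 8, 5) .leaf (.node 1 2 3 1 (19, 19, 10) .leaf .leaf)) (.node 0 3 4 1 (10, 7, 7) .leaf (.node 1 3 8 1 (17, 17, 14) .leaf (.node 0 1 8 3 (6, 5, 5) .leaf (.node 0 3 16 1 (34, 31, 31) .leaf (.node 1 1 16 3 (11, 11, 10) .leaf (.node 0 1 32 3 (22, 21, 21) .leaf .leaf))))))))))⟩

/-- data -/
def ve1 : VE :=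
  ⟨-1314, (-93259737, 364838579, -254442641), ⟨10080221, 101882, 1637758, -10783092, 19105744, -18160573⟩,
    (.node 0 3 28 1 (61, 61, 46) (.node 2 53 28 1 (1115, 1059, 794) .leaf (.node 2 1 56 1 (2179, 2011, 1746) .leaf (.node 1 168 53 1 (6425, 6089, 5294) (.node 2 1 112 1 (4307, 3915, 3650) .leaf (.node 1 336 1 1 (12809, 11801, 11006) (.node 2 1 224 1 (8563, 7723, 7458) .leaf (.node 1 672 1 1 (25577, 23225, 22430) (.node 2 1 448 1 (17075, 15339, 15074) .leaf .leaf) .leaf)) .leaf)) .leaf))) (.node 0 1 56 3 (39, 39, 34) .leaf (.node 0 3 112 1 (229, 229, 214) .leaf (.node 1 3 53 2 (55, 52, 52) .leaf (.node 0 1 224 3 (151, 151, 146) .leaf .leaf))))),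
    (.node 0 3 1 1 (4, 1, 1) .leaf (.node 1 3 2 1 (5, 5, 2) .leaf (.node 0 1 2 3 (2, 1, 1) .leaf (.node 1 1 4 3 (3, 3, 2) (.node 2 3 1 1 (11, 8, 5) .leaf (.node 1 2 3 1 (19, 19, 10) .leaf .leaf)) (.node 0 3 4 1 (10, 7, 7) .leaf (.node 1 3 8 1 (17, 17, 14) .leaf (.node 0 1 8 3 (6, 5, 5) .leaf (.node 0 3 16 1 (34, 31, 31) .leaf .leaf))))))))⟩

/-- data -/
def ve2 : VE :=
  ⟨-2012, (-92630301, 361802026, -252120164), ⟨10094061, 48865, 1666291, -10421934, 18280281, -18386884⟩,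
    (.node 0 3 28 1 (61, 61, 46) (.node 2 53 28 1 (1115, 1059, 794) .leaf .leaf) (.node 0 1 56 3 (39, 39, 34) .leaf (.node 0 3 112 1 (229, 229, 214) .leaf .leaf))),
    (.node 0 3 1 1 (4, 1, 1) .leaf (.node 1 3 2 1 (5, 5, 2) .leaf (.node 0 1 2 3 (2, 1, 1) .leaf (.node 1 1 4 3 (3, 3, 2) (.node 2 3 1 1 (11, 8, 5) .leaf (.node 1 2 3 1 (19, 19, 10) .leaf .leaf)) (.node 0 3 4 1 (10, 7, 7) .leaf (.node 1 3 8 1 (17, 17, 14) .leaf (.node 0 1 8 3 (6, 5, 5) .leaf (.node 0 3 16 1 (34, 31, 31) .leaf .leaf))))))))⟩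

/-- data -/
def ve3 : VE :=
  ⟨-3024, (-91792546, 357857948, -249121615), ⟨10112167, -38004, 1463423, -9643926, 19087927, -18663785⟩,
    (.node 0 3 28 1 (61, 61, 46) .leaf (.node 0 1 56 3 (39, 39, 34) .leaf (.node 0 3 112 1 (229, 229, 214) .leaf .leaf))),
    (.node 0 3 1 1 (4, 1, 1) .leaf (.node 1 3 2 1 (5, 5, 2) .leaf (.node 0 1 2 3 (2, 1, 1) .leaf (.node 1 1 4 3 (3, 3, 2) (.node 2 3 1 1 (11, 8, 5) .leaf (.node 1 2 3 1 (19, 19, 10) .leaf .leaf)) (.node 0 3 4 1 (10, 7, 7) .leaf (.node 1 3 8 1 (17, 17, 14) .leaf (.node 0 1 8 3 (6, 5, 5) .leaf (.node 0 3 16 1 (34, 31, 31) .leaf .leaf))))))))⟩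

/-- data -/
def ve4 : VE :=
  ⟨-4632, (-90831614, 353298111, -245647890), ⟨10136045, -144018, 1201637, -8772908, 20153825, -18649730⟩,
    (.node 0 3 28 1 (61, 61, 46) .leaf (.node 0 1 56 3 (39, 39, 34) .leaf .leaf)),
    (.node 0 3 1 1 (4, 1, 1) .leaf (.node 1 3 2 1 (5, 5, 2) .leaf (.node 0 1 2 3 (2, 1, 1) .leaf (.node 1 1 4 3 (3, 3, 2) (.node 2 3 1 1 (11, 8, 5) .leaf (.node 1 2 3 1 (19, 19, 10) .leaf .leaf)) (.node 0 3 4 1 (10, 7, 7) .leaf (.node 1 3 8 1 (17, 17, 14) .leaf (.node 0 1 8 3 (6, 5, 5) .leaf (.node 0 3 16 1 (34, 31, 31) .leaf .leaf))))))))⟩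

/-- data -/
def ve5 : VE :=
  ⟨-6285, (-89607721, 347551717, -241290565), ⟨10147957, -221104, 1351932, -8251781, 18859519, -19323255⟩,
    (.node 0 3 28 1 (61, 61, 46) .leaf (.node 0 1 56 3 (39, 39, 34) .leaf .leaf)),
    (.node 0 3 1 1 (4, 1, 1) .leaf (.node 1 3 2 1 (5, 5, 2) .leaf (.node 0 1 2 3 (2, 1, 1) .leaf (.node 1 1 4 3 (3, 3, 2) (.node 2 3 1 1 (11, 8, 5) .leaf (.node 1 2 3 1 (19, 19, 10) .leaf .leaf)) (.node 0 3 4 1 (10, 7, 7) .leaf (.node 1 3 8 1 (17, 17, 14) .leaf (.node 0 1 8 3 (6, 5, 5) .leaf (.node 0 3 16 1 (34, 31, 31) .leaf .leaf))))))))⟩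

/-- data -/
def ve6 : VE :=
  ⟨-8761, (-88216079, 340965158, -236286534), ⟨10158410, -412312, 1404526, -6502413, 18494744, -20153051⟩,
    (.node 0 3 28 1 (61, 61, 46) .leaf (.node 0 1 56 3 (39, 39, 34) .leaf .leaf)),
    (.node 0 3 1 1 (4, 1, 1) .leaf (.node 1 3 2 1 (5, 5, 2) .leaf (.node 0 1 2 3 (2, 1, 1) .leaf (.node 1 1 4 3 (3, 3, 2) (.node 2 3 1 1 (11, 8, 5) .leaf (.node 1 2 3 1 (19, 19, 10) .leaf .leaf)) (.node 0 3 4 1 (10, 7, 7) .leaf (.node 1 3 8 1 (17, 17, 14) .leaf (.node 0 1 8 3 (6, 5, 5) .leaf (.node 0 3 16 1 (34, 31, 31) .leaf .leaf))))))))⟩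

/-- data -/
def ve7 : VE :=
  ⟨-12907, (-86510051, 332953128, -230207873), ⟨10175732, -676701, 1281711, -4370798, 19367283, -19029094⟩,
    (.node 0 3 28 1 (61, 61, 46) .leaf (.node 0 1 56 3 (39, 39, 34) .leaf .leaf)),
    (.node 0 3 1 1 (4, 1, 1) .leaf (.node 1 3 2 1 (5, 5, 2) .leaf (.node 0 1 2 3 (2, 1, 1) .leaf (.node 1 1 4 3 (3, 3, 2) (.node 2 3 1 1 (11, 8, 5) .leaf (.node 1 2 3 1 (19, 19, 10) .leaf .leaf)) (.node 0 3 4 1 (10, 7, 7) .leaf (.node 1 3 8 1 (17, 17, 14) .leaf (.node 0 1 8 3 (6, 5, 5) .leaf (.node 0 3 16 1 (34, 31, 31) .leaf .leaf))))))))⟩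

/-- data -/
def ve8 : VE :=
  ⟨-26338, (-84463454, 323388468, -222914465), ⟨10232157, -1121094, 1230574, -929463, 19396790, -16184731⟩,
    (.node 0 3 28 1 (61, 61, 46) .leaf (.node 0 1 56 3 (39, 39, 34) .leaf .leaf)),
    (.node 0 3 1 1 (4, 1, 1) .leaf (.node 1 3 2 1 (5, 5, 2) .leaf (.node 0 1 2 3 (2, 1, 1) .leaf (.node 1 1 4 3 (3, 3, 2) (.node 2 3 1 1 (11, 8, 5) .leaf (.node 1 2 3 1 (19, 19, 10) (.node 2 1 2 3 (7, 6, 3) .leaf .leaf) .leaf)) (.node 0 3 4 1 (10, 7, 7) .leaf (.node 1 3 8 1 (17, 17, 14) .leaf (.node 0 1 8 3 (6, 5, 5) .leaf .leaf)))))))⟩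

/-- data -/
def ve9 : VE :=
  ⟨-50495, (-82041619, 312047969, -214266426), ⟨10332298, -1092827, 2026212, -1991013, 13145258, -16438175⟩,
    (.node 0 3 28 1 (61, 61, 46) .leaf (.node 0 1 56 3 (39, 39, 34) .leaf .leaf)),
    (.node 0 3 1 1 (4, 1, 1) .leaf (.node 1 3 2 1 (5, 5, 2) .leaf (.node 0 1 2 3 (2, 1, 1) .leaf (.node 1 1 4 3 (3, 3, 2) (.node 2 3 1 1 (11, 8, 5) .leaf (.node 1 2 3 1 (19, 19, 10) (.node 2 1 2 3 (7, 6, 3) (.node 0 2 1 1 (41, 35, 20) .leaf .leaf) .leaf) .leaf)) (.node 0 3 4 1 (10, 7, 7) .leaf (.node 1 3 8 1 (17, 17, 14) .leaf (.node 0 1 8 3 (6, 5, 5) (.node 2 2 1 1 (37, 31, 28) (.node 0 2 3 1 (38, 29, 29) .leaf .leaf) .leaf) .leaf)))))))⟩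

/-- data -/
def ve10 : VE :=
  ⟨-66276, (-79129459, 299150431, -204631353), ⟨10248337, -1971467, 2668485, 6339144, 13906877, -2178740⟩,
    (.node 0 3 28 1 (61, 61, 46) .leaf (.node 0 1 56 3 (39, 39, 34) .leaf .leaf)),
    (.node 0 3 1 1 (4, 1, 1) .leaf (.node 1 3 2 1 (5, 5, 2) .leaf (.node 0 1 2 3 (2, 1, 1) .leaf (.node 1 1 4 3 (3, 3, 2) (.node 2 3 1 1 (11, 8, 5) .leaf (.node 1 2 3 1 (19, 19, 10) .leaf .leaf)) (.node 0 3 4 1 (10, 7, 7) .leaf (.node 1 3 8 1 (17, 17, 14) .leaf (.node 0 1 8 3 (6, 5, 5) (.node 2 2 1 1 (37, 31, 28) (.node 0 2 3 1 (38, 29, 29) .leaf .leaf) .leaf) .leaf)))))))⟩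

/-- data -/
def ve11 : VE :=
  ⟨-75318, (-75762886, 283418591, -192790850), ⟨10423832, -1189598, 1147350, -2235553, 17688637, -12299892⟩,
    (.node 0 3 28 1 (61, 61, 46) .leaf (.node 0 1 56 3 (39, 39, 34) .leaf .leaf)),
    (.node 0 3 1 1 (4, 1, 1) .leaf (.node 1 3 2 1 (5, 5, 2) .leaf (.node 0 1 2 3 (2, 1, 1) .leaf (.node 1 1 4 3 (3, 3, 2) (.node 2 3 1 1 (11, 8, 5) .leaf (.node 1 2 3 1 (19, 19, 10) .leaf .leaf)) (.node 0 3 4 1 (10, 7, 7) .leaf (.node 1 3 8 1 (17, 17, 14) .leaf (.node 0 1 8 3 (6, 5, 5) (.node 2 2 1 1 (37, 31, 28) (.node 0 2 3 1 (38, 29, 29) .leaf .leaf) .leaf) .leaf)))))))⟩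

/-- data -/
def ve12 : VE :=
  ⟨-77138, (-71878149, 266134360, -179951808), ⟨10441859, -2239268, -1074913, 6712681, 32919373, -6780287⟩,
    (.node 0 3 28 1 (61, 61, 46) .leaf (.node 0 1 56 3 (39, 39, 34) (.node 2 53 168 1 (6425, 6089, 5294) (.node 0 2 3 1 (239, 239, 194) .leaf .leaf) .leaf) .leaf)),
    (.node 0 3 1 1 (4, 1, 1) .leaf (.node 1 3 2 1 (5, 5, 2) .leaf (.node 0 1 2 3 (2, 1, 1) .leaf (.node 1 1 4 3 (3, 3, 2) (.node 2 3 1 1 (11, 8, 5) .leaf (.node 1 2 3 1 (19, 19, 10) .leaf .leaf)) (.node 0 3 4 1 (10, 7, 7) .leaf (.node 1 3 8 1 (17, 17, 14) .leaf (.node 0 1 8 3 (6, 5, 5) .leaf .leaf)))))))⟩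

/-- data -/
def ve13 : VE :=
  ⟨-71665, (-67165010, 244824327, -164090292), ⟨9983360, -3259257, 3419637, 18620233, 21894407, 13393382⟩,
    (.node 0 3 28 1 (61, 61, 46) .leaf (.node 0 1 56 3 (39, 39, 34) .leaf (.node 0 3 112 1 (229, 229, 214) .leaf (.node 1 3 53 2 (55, 52, 52) .leaf .leaf)))),
    (.node 0 3 1 1 (4, 1, 1) .leaf (.node 1 3 2 1 (5, 5, 2) .leaf (.node 0 1 2 3 (2, 1, 1) .leaf (.node 1 1 4 3 (3, 3, 2) (.node 2 3 1 1 (11, 8, 5) .leaf (.node 1 2 3 1 (19, 19, 10) .leaf .leaf)) (.node 0 3 4 1 (10, 7, 7) .leaf (.node 1 3 8 1 (17, 17, 14) .leaf (.node 0 1 8 3 (6, 5, 5) .leaf .leaf)))))))⟩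

/-- data -/
def ve14 : VE :=
  ⟨-150258, (-62316013, 225222019, -149732784), ⟨10634146, -3538556, -2021943, 17065208, 38488876, 3069108⟩,
    (.node 0 3 28 1 (61, 61, 46) .leaf (.node 0 1 56 3 (39, 39, 34) (.node 2 53 168 1 (6425, 6089, 5294) (.node 0 2 3 1 (239, 239, 194) .leaf .leaf) .leaf) .leaf)),
    (.node 0 3 1 1 (4, 1, 1) .leaf (.node 1 3 2 1 (5, 5, 2) .leaf (.node 0 1 2 3 (2, 1, 1) .leaf (.node 1 1 4 3 (3, 3, 2) .leaf (.node 0 3 4 1 (10, 7, 7) .leaf .leaf)))))⟩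

/-- data -/
def ve15 : VE :=
  ⟨-331174, (-55973292, 200739844, -132007141), ⟨11074378, -7316224, -3894538, 50918904, 55457939, 33512692⟩,
    (.node 0 3 28 1 (61, 61, 46) .leaf .leaf),
    (.node 0 3 1 1 (4, 1, 1) .leaf (.node 1 3 2 1 (5, 5, 2) .leaf (.node 0 1 2 3 (2, 1, 1) .leaf (.node 1 1 4 3 (3, 3, 2) .leaf (.node 0 3 4 1 (10, 7, 7) .leaf .leaf)))))⟩

/-- data -/
def ve16 : VE :=
  ⟨-485514, (-50666702, 175879352, -113335650), ⟨11165199, -10008493, -3649357, 80288937, 70628915, 55826400⟩,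
    (.node 0 3 28 1 (61, 61, 46) .leaf .leaf),
    (.node 0 3 1 1 (4, 1, 1) .leaf (.node 1 3 2 1 (5, 5, 2) .leaf (.node 0 1 2 3 (2, 1, 1) .leaf (.node 1 1 4 3 (3, 3, 2) .leaf (.node 0 3 4 1 (10, 7, 7) .leaf (.node 1 3 8 1 (17, 17, 14) .leaf (.node 0 1 8 3 (6, 5, 5) .leaf .leaf)))))))⟩

/-- data -/
def ve17 : VE :=
  ⟨-767825, (-44101374, 148266733, -93090847), ⟨11559619, -11584634, -4320903, 103747387, 92439277, 59527648⟩,
    (.node 0 3 28 1 (61, 61, 46) .leaf .leaf),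
    (.node 0 3 1 1 (4, 1, 1) .leaf (.node 1 3 2 1 (5, 5, 2) .leaf (.node 0 1 2 3 (2, 1, 1) .leaf (.node 1 1 4 3 (3, 3, 2) .leaf (.node 0 3 4 1 (10, 7, 7) (.node 2 2 1 1 (7, 5, 4) .leaf .leaf) .leaf)))))⟩

/-- data -/
def ve18 : VE :=
  ⟨-1301819, (-36848050, 123188490, -75635083), ⟨12394288, -8747731, -2686896, 99764693, 102535240, 35490905⟩,
    .leaf,
    (.node 0 3 1 1 (4, 1, 1) .leaf (.node 1 3 2 1 (5, 5, 2) .leaf (.node 0 1 2 3 (2, 1, 1) .leaf (.node 1 1 4 3 (3, 3, 2) .leaf (.node 0 3 4 1 (10, 7, 7) .leaf .leaf)))))⟩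

/-- data -/
def ve19 : VE :=
  ⟨-2442797, (-30190104, 97351319, -56871745), ⟨13906608, -3065849, 6302199, 96092386, 98970726, 18110667⟩,
    .leaf,
    (.node 0 3 1 1 (4, 1, 1) .leaf (.node 1 3 2 1 (5, 5, 2) .leaf (.node 0 1 2 3 (2, 1, 1) .leaf .leaf)))⟩

/-- data -/
def ve20 : VE :=
  ⟨-5832615, (-23603506, 77616213, -42623161), ⟨18366550, 10340406, 30618804, 119397310, 126615750, -43682071⟩,
    .leaf,
    (.node 0 3 1 1 (4, 1, 1) .leaf .leaf)⟩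

/-- data -/
def ve21 : VE :=
  ⟨-16186714, (-18863661, 66841381, -32196261), ⟨30312012, 45416605, 112060191, 265288148, 263011374, -222491201⟩,
    .leaf,
    .leaf⟩

/-- data -/
def ve22 : VE :=
  ⟨-25997399, (8495211, 56926812, -40843762), ⟨40252516, 82515577, 200378191, 379939419, 340143348, -363314041⟩,
    .leaf,
    .leaf⟩

/-- data -/
def bR1 : ℤ × ℤ × ℤ := (-1000, 0, 737)

/-- data -/
def tR1 : Tri := (.node 0 3 28 1 (61, 61, 46) .leaf .leaf)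

/-- data -/
def bR2 : ℤ × ℤ × ℤ := (10000, 0, -7615)

/-- data -/
def tR2 : Tri := .leaf

/-- data -/
def bR3 : ℤ × ℤ × ℤ := (0, -1000, 900)

/-- data -/
def tR3 : Tri := .leaf

/-- data -/
def bR4 : ℤ × ℤ × ℤ := (0, 1000, -924)

/-- data -/
def tR4 : Tri := .leaf

/-- data -/
def bR5 : ℤ × ℤ × ℤ := (0, 0, 10000000)

/-- data -/
def nR5 : Cf := ⟨24173679, -609, -949, 342754361, 722094809, -730115977⟩

/-- data -/
def tR5 : Tri := (.node 0 3 28 1 (61, 61, 46) (.node 2 53 28 1 (1115, 1059, 794) (.node 0 6 1 1 (127, 127, 82) .leaf .leaf) .leaf) .leaf)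

/-- data -/
def uR5 : Tri := .leaf

/-- data -/
def bR6 : ℤ × ℤ × ℤ := (0, 0, -115)

/-- data -/
def nR6 : Cf := ⟨-100, 0, 0, 0, 0, 0⟩

/-- data -/
def tR6 : Tri := .leaf

end Vale.Agent.P154.GDP
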